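import Vale.Agent.P113.Defs
import Vale.Agent.P113.Bdl.B3

namespace Vale.Agent.Results.P113.Main

open Vale.Agent.P113

theorem result : ∀ ν : ℝ, 0 < ν → IsComputableReal ν →
    ∃ (a : T3) (O : Set T3) (compile : Machine × List ℕ → Nat.Partrec.Code)
      (f : Machine × List ℕ → ℝ → T3 → E3),
      IsOpen O ∧ IsForceCompiler compile f ∧
      ∀ (M : Machine) (w : List ℕ), ∃ (u : ℝ → T3 → E3) (p : ℝ → T3 → ℝ),
        IsGlobalSmoothSolution ν (f (M, w)) u p ∧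
        (∀ T : ℝ, 0 < T → ∀ v q, IsClassicalSolution ν T (f (M, w)) v q →
          ∀ t ∈ Set.Icc 0 T, v t = u t ∧ q t = p t) ∧
        (∃ X, IsTrajectory u a X) ∧
        ∀ X, IsTrajectory u a X → ((∃ t : ℝ, 0 ≤ t ∧ proj (X t) ∈ O) ↔ HaltsOn M w) :=
  fun ν hν hc => main ν hν hc

end Vale.Agent.Results.P113.Main
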